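import Vale.Agent.Lib.P184.Geometric
import Vale.Agent.Lib.P184.Criterion
import Vale.Agent.Lib.P184.Roundness
import Vale.Agent.Lib.P184.Linear

namespace Vale.Agent.Results.P184.AAA_union

universe u v w

/-- Everything proved here about the `ℓ¹`-Bass conjecture, for one group `G` and one idempotent
matrix `e` over `ℓ¹(G)`: the full conclusion of Q1 when `G` acts geometrically on a proper CAT(0)
space, and for arbitrary `G` the vanishing of the class trace at every `z` that is seen by a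
length-dominated character of its centraliser, by linear orbit growth on a space with the
quadrilateral inequality, or by an eigenvalue off the unit circle in a representation. -/
theorem result {G : Type u} [Group G] {q : ℕ} (e : G → Matrix (Fin q) (Fin q) ℂ)
    (he_sum : ∀ i j, Summable fun g => ‖e g i j‖)
    (he_idem : ∀ g i j, ∑' h, ∑ k, e h i k * e (h⁻¹ * g) k j = e g i j) :
    (∀ (X : Type v) [MetricSpace X] [ProperSpace X] [Nonempty X]
        [MulAction G X] [IsIsometricSMul G X],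
      (∀ x y : X, ∃ m, dist x m = dist x y / 2 ∧ dist y m = dist x y / 2) →
      (∀ p x y m : X, dist x m = dist x y / 2 → dist y m = dist x y / 2 →
        dist p m ^ 2 ≤ dist p x ^ 2 / 2 + dist p y ^ 2 / 2 - dist x y ^ 2 / 4) →
      (∀ K : Set X, IsCompact K → {g : G | ((fun x => g • x) '' K ∩ K).Nonempty}.Finite) →
      (∃ K : Set X, IsCompact K ∧ ∀ x : X, ∃ g : G, g • x ∈ K) →
      ∃ F : Finset (ConjClasses G), (∀ C ∈ F, ∃ g, ConjClasses.mk g = C ∧ IsOfFinOrder g) ∧
        ∀ C, C ∉ F → ∑' x : {x : G // ConjClasses.mk x = C}, ∑ i, e x.1 i i = 0) ∧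
    (∀ (z : G) (L χ : G → ℝ), (∀ a b, L (a * b) ≤ L a + L b) →
      (∀ v w, Commute v z → Commute w z → χ (v * w) = χ v + χ w) →
      (∀ v, Commute v z → |χ v| ≤ L v) → χ z ≠ 0 →
      ∑' x : {x : G // IsConj z x}, ∑ i, e x.1 i i = 0) ∧
    (∀ (X : Type v) [PseudoMetricSpace X] [MulAction G X] [IsIsometricSMul G X]
        (z : G) (y : X) (c : ℝ),
      (∀ a b c d : X,
        dist a c ^ 2 + dist b d ^ 2 ≤ dist a b ^ 2 + dist b c ^ 2 + dist c d ^ 2 + dist d a ^ 2) →
      0 < c → (∀ n : ℕ, c * n ≤ dist y ((z ^ n) • y)) →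
      ∑' x : {x : G // IsConj z x}, ∑ i, e x.1 i i = 0) ∧
    (∀ (𝕜 : Type w) [NormedField 𝕜] [IsAlgClosed 𝕜] {n : ℕ}
        (ρ : G →* Matrix (Fin n) (Fin n) 𝕜) (z : G) (μ : 𝕜) (v : Fin n → 𝕜),
      v ≠ 0 → (ρ z).mulVec v = μ • v → ‖μ‖ ≠ 1 →
      ∑' x : {x : G // IsConj z x}, ∑ i, e x.1 i i = 0) :=
  ⟨fun _ _ _ _ _ _ hmid hCN hproper hcocompact =>
      Vale.Agent.Lib.P184.q1_geometric hmid hCN hproper hcocompact e he_sum he_idem,
    fun z L χ hL hχ hχL hχz =>
      Vale.Agent.Lib.P184.criterion z L hL χ hχ hχL hχz e he_sum he_idem,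
    fun _ _ _ _ z y c hround hc hlin =>
      Vale.Agent.Lib.P184.round_trace_zero hround z y c hc hlin e he_sum he_idem,
    fun _ _ _ _ ρ z μ v hv hμ hnorm =>
      Vale.Agent.Lib.P184.linear_trace_zero ρ z μ v hv hμ hnorm e he_sum he_idem⟩

end Vale.Agent.Results.P184.AAA_union
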